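import Vale.Agent.N147X.Main

open MeasureTheory Vale.Agent.N147X.W

/-- **The directional zero-one law** for random walk in an iid random environment, for every
finite set of steps and every law of the rows, without ellipticity. -/
theorem Vale.Agent.Results.P147.A0AllSteps.result :
    ∀ (d : ℕ) (U : Finset (Site d)) (μ : Measure (Row U)), IsProbabilityMeasure μ →
      (∀ (ω : Env U) (x : Site d), ∃! P, IsQuenched ω x P) ∧
      ∀ P : Site d → Env U → Measure (Paths d), (∀ x ω, IsQuenched ω x (P x ω)) →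
        (∀ x, Measurable (P x) ∧ IsProbabilityMeasure (annealed μ (P x))) ∧
        ∀ l : Fin d → ℝ, ∃ p, (p = 0 ∨ p = 1) ∧ (∀ x, annealed μ (P x) (Escape l) = p) ∧
          ∀ᵐ ω ∂envLaw μ, ∀ x, P x ω (Escape l) = p := by
  refine fun d U μ _ => ⟨existsUnique_quenched, fun P hP =>
    ⟨fun x => meas_quenched μ (hP x), fun l => ?_⟩⟩
  obtain ⟨p, h1, h2⟩ := zero_one μ l
  exact ⟨p, h1, fun x => (h2 x _ (hP x)).1, ae_all_iff.2 fun x => (h2 x _ (hP x)).2⟩
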