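import Vale.Agent.N147.Main

open MeasureTheory Filter Vale.Agent.P147W36 Vale.Agent.N147
open scoped Topology

/-- **The shape of the set of directions of escape and the asymptotic direction** for random walk
in an iid elliptic environment. -/
theorem Vale.Agent.Results.P147.A0EscapeDirections.result (d : ℕ) (hd : 2 ≤ d)
    (μ : Measure (Row d)) [IsProbabilityMeasure μ] (hμ : Elliptic μ)
    (P : Env d → Measure (Paths d)) (hP : ∀ ω, IsQuenched ω 0 (P ω)) :
    -- (1) the directions of escape form the empty set or an open half of a subspace `W`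
    ((∀ l, annealed μ P (Escape l) = 0) ∨
      ∃ (W : Submodule ℝ (EuclideanSpace ℝ (Fin d))) (ν : EuclideanSpace ℝ (Fin d)), ν ∈ W ∧
        (∀ l, annealed μ P (Escape l) = 1 ↔ l ∈ W ∧ 0 < inner ℝ l ν) ∧
        (∀ᵐ X ∂annealed μ P, DirTo (proj W X) ν) ∧
        ∀ l, l ∉ W → ∀ᵐ X ∂annealed μ P, Unbounded X l ν) ∧
    -- (2) the asymptotic direction
    List.TFAE
      [annealed μ P {X | ∃ u, DirTo (pos X) u} ≠ 0,
        Submodule.span ℝ {l | annealed μ P (Escape l ∪ Escape (-l)) ≠ 0} = ⊤,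
        ∃ ν, (∀ᵐ X ∂annealed μ P, DirTo (pos X) ν) ∧
          ∀ l, annealed μ P (Escape l) = 1 ↔ 0 < inner ℝ l ν] :=
  ((main μ hd hμ).1 P hP).2
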